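import Claimed.Agent.R315.Pack008
import Claimed.Agent.R314.C.Smp

/-!
# Row 314, block (C), package BUS, file 2: THE CALABI-HOPF STRONG MINIMUM PRINCIPLE IN A CHART      (architect helper111)

`G` a smooth metric matrix on the open set `U ⊆ E d` (`rm_Met G U`), `f ≥ 0` continuous on `U`, SUPERHARMONIC IN THE BARRIER SENSE: at every `u ∈ U` and for every `ε > 0` there is a
smooth `s` with `f ≤ s` near `u`, `s u = f u`, `lapC G s u ≤ ε`.  Then `{f = 0}` is open (`bus_hopf`).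

PROOF (E. Hopf, Calabi).  `Z = {u ∈ U | f u = 0}`.  If `Z` is not open there is a closed ball `closedBall q ρ` which meets `Z` in exactly one point `p`, `dist p q = ρ` (`bus_touch`).
`B' = closedBall p (ρ/2) ⊆ U`, `q ∉ B'`; `k w = exp (-α ‖w - q‖²)` with `lapC G k ≥ c₀ > 0` on `B'` (`bus_aux`); `h = k - exp (-α ρ²)`: `h > 0` in `ball q ρ`, `h p = 0`, `h < 0` off `closedBall q ρ`, `h ≤ 1`.
`f ≥ δ > 0` on the compact set `sphere p (ρ/2) ∩ closedBall q ρ`.  `F = f - ε h`, `ε = δ/2`: `F > 0` on `sphere p (ρ/2)`, `F p = 0`: `F` has a minimum over `B'` at an interior point `y₀`.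
A barrier `s` at `y₀` with `lapC G s y₀ ≤ ε c₀ / 2`: `s - ε h` has a local minimum at `y₀`, so `0 ≤ lapC G (s - ε h) y₀ ≤ ε c₀/2 - ε c₀ < 0` (`rm_min_lap`, `rm_lap_add`, `rm_lap_smul`, `rm_lap_const`).

Leaves: `L-BUS-TOUCH` (Mathlib only), `L-BUS-AUX`, `L-BUS-HOPF`.
-/

set_option autoImplicit false
set_option linter.unusedSectionVars false
open scoped ContDiff Topology
open Set Filter Metric Claims.C0499 Claimed.Agent.R315

namespace Claimed.Agent.R314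

variable {d : ℕ}

/-- L-BUS-TOUCH, **the touching ball** (Mathlib only).
PLAN.  `p₀ ∈ Z` not interior; `closedBall p₀ (3 r₀) ⊆ U`; `q₀ ∈ ball p₀ r₀ \ Z`; `Z ∩ closedBall p₀ (3 r₀) = C ∩ closedBall p₀ (3 r₀)` is compact and nonempty: `p` a point of it at minimal distance `ρ₁` from `q₀`
(`IsCompact.exists_infDist_eq_dist` or `IsCompact.exists_isMinOn`); `0 < ρ₁ ≤ dist q₀ p₀ < r₀`; no point of `Z` in `ball q₀ ρ₁` (such a point lies in `ball p₀ (2 r₀)`).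
`q = midpoint of q₀, p`, `ρ = ρ₁/2`.  If `‖w - q‖ ≤ ρ`, `w ≠ p`: with `a = p - q = q - q₀`, `v = w - q ≠ a`: `0 < ‖v - a‖² = ‖v‖² - 2⟪v,a⟫ + ‖a‖²`, so `‖w - q₀‖² = ‖v + a‖² = ‖v‖² + 2⟪v,a⟫ + ‖a‖² < 2‖v‖² + 2‖a‖² ≤ ρ₁²`. -/
theorem bus_touch {U Z C : Set (E d)} (hU : IsOpen U) (hC : IsClosed C) (hZ : Z = U ∩ C) (hno : ¬ IsOpen Z) :
    ∃ (q p : E d) (ρ : ℝ), 0 < ρ ∧ p ∈ Z ∧ dist p q = ρ ∧ closedBall p ρ ⊆ U ∧ ∀ w ∈ closedBall q ρ, w ∈ Z → w = p := by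
  rw [isOpen_iff_mem_nhds] at hno
  push Not at hno
  obtain ⟨p₀, hp₀, hn⟩ := hno
  have hp₀U : p₀ ∈ U := by rw [hZ] at hp₀; exact hp₀.1
  have hp₀C : p₀ ∈ C := by rw [hZ] at hp₀; exact hp₀.2
  obtain ⟨r, hr, hrU⟩ := Metric.isOpen_iff.1 hU p₀ hp₀U
  set r₀ : ℝ := r / 4 with hr₀
  have hr₀pos : 0 < r₀ := by positivity
  have h3U : ∀ w, dist w p₀ ≤ 3 * r₀ → w ∈ U := fun w hw => hrU (mem_ball.2 (by rw [hr₀] at hw; linarith))
  obtain ⟨q₀, hq₀, hq₀Z⟩ : ∃ q₀ ∈ ball p₀ r₀, q₀ ∉ Z := by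
    by_contra hcon
    push Not at hcon
    exact hn (Filter.mem_of_superset (ball_mem_nhds p₀ hr₀pos) hcon)
  have hK : IsCompact (C ∩ closedBall p₀ (3 * r₀)) := (isCompact_closedBall p₀ (3 * r₀)).inter_left hC
  have hKne : (C ∩ closedBall p₀ (3 * r₀)).Nonempty := ⟨p₀, hp₀C, mem_closedBall_self (by positivity)⟩
  obtain ⟨p, hpK, hmin⟩ := hK.exists_isMinOn hKne (f := fun w => dist w q₀) (by fun_prop)
  have hKZ : ∀ w ∈ C ∩ closedBall p₀ (3 * r₀), w ∈ Z := fun w hw => by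
    rw [hZ]
    exact ⟨h3U w (mem_closedBall.1 hw.2), hw.1⟩
  have hpZ : p ∈ Z := hKZ p hpK
  have hpq₀ : p ≠ q₀ := fun h => hq₀Z (h ▸ hpZ)
  have hρ₁ : 0 < dist p q₀ := dist_pos.2 hpq₀
  have hq₀d : dist q₀ p₀ < r₀ := mem_ball.1 hq₀
  have hρ₁r : dist p q₀ < r₀ := by
    have := hmin ⟨hp₀C, mem_closedBall_self (by positivity)⟩
    have h2 : dist p q₀ ≤ dist p₀ q₀ := this
    rw [dist_comm p₀ q₀] at h2
    linarith
  have hfree : ∀ w ∈ Z, dist p q₀ ≤ dist w q₀ := by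
    intro w hw
    by_contra hlt
    push Not at hlt
    have h1 : dist w p₀ ≤ dist w q₀ + dist q₀ p₀ := dist_triangle _ _ _
    have hwK : w ∈ C ∩ closedBall p₀ (3 * r₀) := by
      refine ⟨by rw [hZ] at hw; exact hw.2, mem_closedBall.2 (by linarith)⟩
    have h2 : dist p q₀ ≤ dist w q₀ := hmin hwK
    linarith
  set a : E d := (1 / 2 : ℝ) • (p - q₀) with ha
  have hna : ‖a‖ = dist p q₀ / 2 := by
    rw [ha, norm_smul, dist_eq_norm]
    norm_num
    ring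
  have hpa : p - (q₀ + a) = a := by
    rw [ha]
    module
  refine ⟨q₀ + a, p, dist p q₀ / 2, by positivity, hpZ, ?_, ?_, ?_⟩
  · rw [dist_eq_norm, hpa, hna]
  · intro w hw
    rw [mem_closedBall] at hw
    refine h3U w ?_
    have h1 : dist w p₀ ≤ dist w p + dist p p₀ := dist_triangle _ _ _
    have h2 : dist p p₀ ≤ dist p q₀ + dist q₀ p₀ := dist_triangle _ _ _
    linarith
  · intro w hw hwZ
    by_contra hne
    rw [mem_closedBall, dist_eq_norm] at hw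
    have h1 := parallelogram_law_with_norm ℝ (w - (q₀ + a)) a
    have e1 : w - (q₀ + a) + a = w - q₀ := by abel
    have e2 : w - (q₀ + a) - a = w - p := by
      have : p = q₀ + a + a := by
        rw [ha]
        module
      rw [this]
      abel
    rw [e1, e2] at h1
    have h2 : 0 < ‖w - p‖ := norm_pos_iff.2 (sub_ne_zero.2 hne)
    have h3 := hfree w hwZ
    rw [dist_eq_norm w q₀] at h3
    have h4 : 0 ≤ ‖w - (q₀ + a)‖ := norm_nonneg _
    rw [hna] at h1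
    nlinarith

theorem bus_aux_pdiff (q w : E d) (i : Fin d) : pdiff (fun w => ‖w - q‖ ^ 2) i w = 2 * (w i - q i) := by
  unfold pdiff
  have h : HasFDerivAt (fun w : E d => w - q) (ContinuousLinearMap.id ℝ (E d)) w := (hasFDerivAt_id w).sub_const q
  rw [h.norm_sq.fderiv]
  simp [EuclideanSpace.inner_single_right]

theorem bus_aux_gradSq (G : rm_MF d) (r : E d → ℝ) (c : ℝ) (w : E d) (hr : DifferentiableAt ℝ r w) :
    gradSqC G (fun w => c * r w) w = c ^ 2 * gradSqC G r w := by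
  unfold gradSqC
  simp only [rm_pdiff_const_mul c hr, Finset.mul_sum]
  exact Finset.sum_congr rfl fun i _ => Finset.sum_congr rfl fun j _ => by ring

theorem bus_aux_pos {G : rm_MF d} {U : Set (E d)} (hG : rm_Met G U) {q w : E d} (hw : w ∈ U) (hwq : w ≠ q) :
    0 < gradSqC G (fun w => ‖w - q‖ ^ 2) w := by
  have hp := rm_inv_pos hG hw
  have hx : (fun i => 2 * (w i - q i)) ≠ 0 := by
    intro h
    apply hwq
    ext i
    have := congrFun h i
    simp only [Pi.zero_apply] at this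
    linarith
  have h := hp.dotProduct_mulVec_pos hx
  unfold gradSqC
  simp only [bus_aux_pdiff]
  have e : star (fun i => 2 * (w i - q i)) ⬝ᵥ ((G w)⁻¹.mulVec fun i => 2 * (w i - q i)) =
      ∑ i : Fin d, ∑ j : Fin d, (G w)⁻¹ i j * (2 * (w i - q i)) * (2 * (w j - q j)) := by
    simp only [dotProduct, Matrix.mulVec, Finset.mul_sum, Pi.star_apply, star_trivial]
    exact Finset.sum_congr rfl fun i _ => Finset.sum_congr rfl fun j _ => by ring
  rw [e] at h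
  exact h

/-- L-BUS-AUX, **the auxiliary function**.
PLAN.  `r w = ‖w - q‖²` is smooth (`contDiff_norm_sq`), `pdiff r i w = 2 (w i - q i)`.  `rm_lap_exp` with `f = -α r`, `rm_lap_smul`: `lapC G (exp (-α r)) = exp (-α r) (α² gradSqC G r - α lapC G r)`
(`gradSqC G (fun w => -α * r w) = α² gradSqC G r`: unfold, `rm_pdiff_*`).  `gradSqC G r`, `lapC G r` are continuous on `U` (`if_gradSqC_contDiffOn`, `rm_lapC_smooth`); `gradSqC G r w > 0` for `w ≠ q` (`rm_inv_pos`: `(G w)⁻¹` is positive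
definite, the vector `2 (w - q)` is not `0`).  On the compact `K`: `gradSqC G r ≥ c₁ > 0`, `lapC G r ≤ C₁`, `r ≤ R₁`; `α = (|C₁| + 1)/c₁`, `c₀ = exp (-α R₁) α`.  `K = ∅`: trivial. -/
theorem bus_aux {G : rm_MF d} {U : Set (E d)} (hG : rm_Met G U) {K : Set (E d)} (hK : IsCompact K) (hKU : K ⊆ U) {q : E d} (hq : q ∉ K) :
    ∃ α : ℝ, 0 < α ∧ ∃ c₀ : ℝ, 0 < c₀ ∧ ∀ w ∈ K, c₀ ≤ lapC G (fun w => Real.exp (-α * ‖w - q‖ ^ 2)) w := by
  have hr : ContDiff ℝ ∞ (fun w : E d => ‖w - q‖ ^ 2) := (contDiff_id.sub contDiff_const).norm_sq ℝ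
  have hrU : ContDiffOn ℝ ∞ (fun w : E d => ‖w - q‖ ^ 2) U := hr.contDiffOn
  have hgc : ContinuousOn (fun w => gradSqC G (fun w => ‖w - q‖ ^ 2) w) K :=
    ((if_gradSqC_contDiffOn hG.opn hG.smooth (rm_det_ne hG) hrU).continuousOn).mono hKU
  have hlc : ContinuousOn (fun w => lapC G (fun w => ‖w - q‖ ^ 2) w) K := ((rm_lapC_smooth hG hrU).continuousOn).mono hKU
  obtain ⟨c₁, hc₁, hc₁K⟩ := hK.exists_forall_le' hgc (a := 0)
    (fun w hw => bus_aux_pos hG (hKU hw) (fun h => hq (h ▸ hw)))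
  obtain ⟨C₁, hC₁⟩ := hK.bddAbove_image hlc
  obtain ⟨R₁, hR₁⟩ := hK.bddAbove_image hr.continuous.continuousOn
  have hα : 0 < (|C₁| + 1) / c₁ := by positivity
  obtain ⟨α, hαe⟩ : ∃ α, α = (|C₁| + 1) / c₁ := ⟨_, rfl⟩
  rw [← hαe] at hα
  refine ⟨α, hα, Real.exp (-α * R₁) * α, by positivity, fun w hw => ?_⟩
  have hwU := hKU hw
  have hfU : ContDiffOn ℝ ∞ (fun w : E d => -α * ‖w - q‖ ^ 2) U := contDiffOn_const.mul hrU
  rw [rm_lap_exp hG hwU hfU, rm_lap_smul hG hwU (-α) hrU, bus_aux_gradSq G _ (-α) w (hr.differentiable (by simp) w)]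
  have h1 : c₁ ≤ gradSqC G (fun w => ‖w - q‖ ^ 2) w := hc₁K w hw
  have h2 : lapC G (fun w => ‖w - q‖ ^ 2) w ≤ C₁ := hC₁ (mem_image_of_mem _ hw)
  have h3 : ‖w - q‖ ^ 2 ≤ R₁ := hR₁ (mem_image_of_mem _ hw)
  have h4 : α * c₁ = |C₁| + 1 := by rw [hαe]; field_simp
  have h5 : α ≤ -α * lapC G (fun w => ‖w - q‖ ^ 2) w + (-α) ^ 2 * gradSqC G (fun w => ‖w - q‖ ^ 2) w := by
    have a1 : α * lapC G (fun w => ‖w - q‖ ^ 2) w ≤ α * C₁ := mul_le_mul_of_nonneg_left h2 hα.le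
    have a2 : α ^ 2 * c₁ ≤ α ^ 2 * gradSqC G (fun w => ‖w - q‖ ^ 2) w := mul_le_mul_of_nonneg_left h1 (by positivity)
    have a3 : α ^ 2 * c₁ = α * (|C₁| + 1) := by rw [← h4]; ring
    have a4 : α * C₁ ≤ α * |C₁| := mul_le_mul_of_nonneg_left (le_abs_self _) hα.le
    nlinarith
  have h6 : Real.exp (-α * R₁) ≤ Real.exp (-α * ‖w - q‖ ^ 2) := Real.exp_le_exp.2 (by nlinarith)
  calc Real.exp (-α * R₁) * α ≤ Real.exp (-α * ‖w - q‖ ^ 2) * α := mul_le_mul_of_nonneg_right h6 hα.le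
    _ ≤ _ := mul_le_mul_of_nonneg_left h5 (Real.exp_pos _).le

/-- L-BUS-HOPF, **the strong minimum principle for barrier superharmonic functions** (proof in the header, from `bus_touch` with `C = {u | u ∉ U ∨ f u = 0}`-like closed set:
`Z = U ∩ closure Z` because `f` is continuous on `U`; and `bus_aux` with `K = closedBall p (ρ/2)`). -/
theorem bus_hopf {G : rm_MF d} {U : Set (E d)} (hG : rm_Met G U) {f : E d → ℝ} (hf : ContinuousOn f U) (h0 : ∀ u ∈ U, 0 ≤ f u)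
    (hb : ∀ u ∈ U, ∀ ε : ℝ, 0 < ε → ∃ s : E d → ℝ, ContDiffOn ℝ ∞ s U ∧ s u = f u ∧ (∀ᶠ w in 𝓝 u, f w ≤ s w) ∧ lapC G s u ≤ ε) :
    IsOpen {u | u ∈ U ∧ f u = 0} := by
  -- helper59: `smp_abs` of `R314/C/Smp.lean` (built on `Lib/Ell/Hopf`) applied to `-f`; `bus_touch`, `bus_aux` are not needed
  have hopen := smp_abs (u := fun w => -1 * f w) hG.opn (smp_loc hG) (continuousOn_const.mul hf)
    (fun x hx => by have := h0 x hx; linarith)
    (fun p hp ε hε => by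
      obtain ⟨s, h1, h2, h3, h4⟩ := hb p hp ε hε
      have hc : ContDiffAt ℝ 2 (fun w => -1 * s w) p :=
        (contDiffAt_const.mul (h1.contDiffAt (hG.opn.mem_nhds hp))).of_le rm_two_le
      refine ⟨fun w => -1 * s w, hc, by simp only [h2], ?_, ?_⟩
      · filter_upwards [h3] with w hw
        linarith
      · rw [← smp_lapC_eq hG hp hc, rm_lap_smul hG hp (-1) h1]
        linarith)
  have : {u | u ∈ U ∧ f u = 0} = {x | x ∈ U ∧ -1 * f x = 0} := by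
    ext x
    simp
  rw [this]
  exact hopen

end Claimed.Agent.R314
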