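import Mathlib

/-!
# Row 314, block (C), package BUS, file 1: THE METRIC PART (Mathlib only)      (architect helper111)

Everything here is about a continuous proper pseudo-distance `d` on a subset `X` of a Hausdorff space `V` (`PMet X d`); in the application
`d = rdist X g` (`Bus/Main.lean`: `bus_pmet`).  No manifold, no curve, no geodesic equation.

* `SegD X d c S`  : `c : ℝ → V` restricted to `S ⊆ ℝ` is an isometric embedding into `(X, d)` (segment `S = Icc a b`, ray `S = Ici 0`, line `S = univ`);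
* `HasSegD X d`   : any two points are joined by a segment (GEO: Hopf-Rinow);
* `busD d c x = ⨅ k : ℕ, d x (c k) - k` : Busemann function of the ray `c`;
* `pm_limit`      : LIMITS OF SEGMENTS ALONG THE ULTRAFILTER `hyperfilter ℕ` (no subsequence, no Arzela-Ascoli);
* `bus_*`         : monotonicity, `1`-Lipschitz, continuity, values on the ray, `b⁺ + b⁻ ≥ 0`;
* `bus_ray`       : asymptotic rays;  `bus_supp` : the support inequality;
* `bus_line_through` : if `b⁺ + b⁻ = 0` then the two asymptotic rays at `x` fit together to a line on which `b⁺` has slope `-1`.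

Every `sorry` is a leaf `L-BUS-*` (name in the docstring).  Statements are frozen; put auxiliary lemmas directly above your theorem (prefix `bus_`/`pm_`), edit only your block.
-/

set_option autoImplicit false
set_option linter.unusedSectionVars false
open scoped Topology
open Set Filter

namespace Claimed.Agent.R314

variable {V : Type} [TopologicalSpace V]

/-- a continuous proper pseudo-distance `d` on the subset `X` -/
structure PMet (X : Set V) (d : V → V → ℝ) : Prop where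
  self : ∀ x ∈ X, d x x = 0
  symm : ∀ x ∈ X, ∀ y ∈ X, d x y = d y x
  tri : ∀ x ∈ X, ∀ y ∈ X, ∀ z ∈ X, d x z ≤ d x y + d y z
  cont : ContinuousOn (fun p : V × V => d p.1 p.2) (X ×ˢ X)
  proper : ∀ x ∈ X, ∀ R : ℝ, IsCompact {y | y ∈ X ∧ d x y ≤ R}

/-- `c` restricted to `S` is an isometric embedding into `(X, d)` -/
def SegD (X : Set V) (d : V → V → ℝ) (c : ℝ → V) (S : Set ℝ) : Prop :=
  (∀ s ∈ S, c s ∈ X) ∧ ∀ s ∈ S, ∀ t ∈ S, d (c s) (c t) = |s - t|

/-- any two points are joined by a segment -/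
def HasSegD (X : Set V) (d : V → V → ℝ) : Prop :=
  ∀ x ∈ X, ∀ y ∈ X, ∃ c : ℝ → V, c 0 = x ∧ c (d x y) = y ∧ SegD X d c (Icc 0 (d x y))

/-- Busemann function of the ray `c` -/
noncomputable def busD (d : V → V → ℝ) (c : ℝ → V) (x : V) : ℝ := ⨅ k : ℕ, (d x (c k) - k)

variable {X : Set V} {d : V → V → ℝ} {c : ℝ → V} {S S' : Set ℝ} {x y : V}

/-! ## [A] elementary -/

theorem PMet.nonneg (h : PMet X d) (hx : x ∈ X) (hy : y ∈ X) : 0 ≤ d x y := by
  have h1 := h.tri x hx y hy x hx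
  rw [h.self x hx, h.symm y hy x hx] at h1
  linarith

theorem SegD.mono (h : SegD X d c S) (hS : S' ⊆ S) : SegD X d c S' :=
  ⟨fun s hs => h.1 s (hS hs), fun s hs t ht => h.2 s (hS hs) t (hS ht)⟩

theorem SegD.neg (h : SegD X d c univ) : SegD X d (fun t => c (-t)) univ :=
  ⟨fun s _ => h.1 _ (mem_univ _), fun s _ t _ => by
    rw [h.2 _ (mem_univ _) _ (mem_univ _)]
    rw [show -s - -t = -(s - t) by ring, abs_neg]⟩

/-- L-BUS-A.  `y ↦ d x y` is continuous on `X` -/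
theorem PMet.cont_right (h : PMet X d) (hx : x ∈ X) : ContinuousOn (fun y => d x y) X := by
  have h1 : ContinuousOn (fun y : V => ((x, y) : V × V)) X := (continuous_const.prodMk continuous_id).continuousOn
  exact h.cont.comp h1 fun y hy => ⟨hx, hy⟩

/-- L-BUS-A.  a compact subset of `X` is bounded -/
theorem PMet.bdd_of_compact (h : PMet X d) (hx : x ∈ X) {K : Set V} (hK : IsCompact K) (hKX : K ⊆ X) :
    ∃ D : ℝ, ∀ y ∈ K, d x y ≤ D := by
  obtain ⟨D, hD⟩ := (hK.image_of_continuousOn ((h.cont_right hx).mono hKX)).bddAbove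
  exact ⟨D, fun y hy => hD ⟨y, hy, rfl⟩⟩

/-! ## [L] limits of segments -/

/-- L-BUS-LIM, **limits of segments along the ultrafilter `hyperfilter ℕ`**.
PLAN.  `𝒰 = hyperfilter ℕ`, `𝒰 ≤ atTop` (`Filter.hyperfilter_le_cofinite`, `Nat.cofinite_eq_atTop`).  `x₀ = c 0 0`, `D` from `bdd_of_compact`.  For `t` in the limit domain eventually
`d x₀ (c k t) ≤ d x₀ (c k 0) + |t| ≤ D + |t|`: the ultrafilter `𝒰.map (c · t)` contains the compact ball, so it converges to a point of the ball (`IsCompact.ultrafilter_le_nhds`); `c' t` := this point (choice; anything off the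
domain).  Distances: `(c k s, c k t) → (c' s, c' t)` within `X ×ˢ X`, `h.cont`, the values are eventually `|s - t|`, uniqueness of limits in `ℝ` (`𝒰` is `NeBot`).  `c' 0 ∈ K`: `K` is closed (`T2`). -/
theorem pm_limit [T2Space V] (h : PMet X d) {K : Set V} (hK : IsCompact K) (hKX : K ⊆ X) (c : ℕ → ℝ → V) (a b : ℕ → ℝ)
    (h0 : ∀ k, c k 0 ∈ K) (hab : ∀ k, (0 : ℝ) ∈ Icc (a k) (b k)) (hs : ∀ k, SegD X d (c k) (Icc (a k) (b k))) :
    ∃ c' : ℝ → V, c' 0 ∈ K ∧ SegD X d c' {t | ∀ᶠ k in atTop, t ∈ Icc (a k) (b k)} ∧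
      ∀ t, (∀ᶠ k in atTop, t ∈ Icc (a k) (b k)) → Tendsto (fun k => c k t) (hyperfilter ℕ : Filter ℕ) (𝓝 (c' t)) := by
  have hU : ((hyperfilter ℕ : Ultrafilter ℕ) : Filter ℕ) ≤ atTop := by
    rw [← Nat.cofinite_eq_atTop]; exact hyperfilter_le_cofinite
  have hx0 : c 0 0 ∈ X := hKX (h0 0)
  obtain ⟨D, hD⟩ := h.bdd_of_compact hx0 hK hKX
  have key : ∀ t, ∃ y, (∀ᶠ k in atTop, t ∈ Icc (a k) (b k)) →
      (y ∈ X ∧ Tendsto (fun k => c k t) (hyperfilter ℕ : Filter ℕ) (𝓝 y)) := by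
    intro t
    by_cases ht : ∀ᶠ k in atTop, t ∈ Icc (a k) (b k)
    · have h1 : ∀ᶠ k in (hyperfilter ℕ : Filter ℕ), c k t ∈ {y | y ∈ X ∧ d (c 0 0) y ≤ D + |t|} := by
        refine (ht.filter_mono hU).mono fun k hk => ?_
        have hkt : c k t ∈ X := (hs k).1 t hk
        refine ⟨hkt, ?_⟩
        have h2 := h.tri _ hx0 _ (hKX (h0 k)) _ hkt
        have h3 := (hs k).2 0 (hab k) t hk
        rw [zero_sub, abs_neg] at h3
        have h4 := hD _ (h0 k)
        linarith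
      obtain ⟨y, hy, hyl⟩ := (h.proper _ hx0 (D + |t|)).ultrafilter_le_nhds ((hyperfilter ℕ).map fun k => c k t)
        (by rw [le_principal_iff]; exact h1)
      exact ⟨y, fun _ => ⟨hy.1, hyl⟩⟩
    · exact ⟨c 0 0, fun h' => absurd h' ht⟩
  choose c' hc' using key
  have hdom0 : ∀ᶠ k in atTop, (0 : ℝ) ∈ Icc (a k) (b k) := Eventually.of_forall hab
  refine ⟨c', ?_, ⟨fun s hs' => (hc' s hs').1, fun s hs' t ht' => ?_⟩, fun t ht => (hc' t ht).2⟩
  · exact hK.isClosed.mem_of_tendsto (hc' 0 hdom0).2 (Eventually.of_forall h0)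
  · have hs1 := hc' s hs'
    have ht1 := hc' t ht'
    have h1 : Tendsto (fun k => (c k s, c k t)) (hyperfilter ℕ : Filter ℕ) (𝓝[X ×ˢ X] (c' s, c' t)) := by
      refine tendsto_nhdsWithin_iff.2 ⟨hs1.2.prodMk_nhds ht1.2, ?_⟩
      filter_upwards [hU hs', hU ht'] with k hk1 hk2
      exact ⟨(hs k).1 s hk1, (hs k).1 t hk2⟩
    have h2 : Tendsto (fun k => d (c k s) (c k t)) (hyperfilter ℕ : Filter ℕ) (𝓝 (d (c' s) (c' t))) :=
      (h.cont (c' s, c' t) ⟨hs1.1, ht1.1⟩).tendsto.comp h1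
    have h3 : Tendsto (fun k => d (c k s) (c k t)) (hyperfilter ℕ : Filter ℕ) (𝓝 |s - t|) := by
      refine tendsto_const_nhds.congr' ?_
      filter_upwards [hU hs', hU ht'] with k hk1 hk2
      exact ((hs k).2 s hk1 t hk2).symm
    exact tendsto_nhds_unique h2 h3

/-! ## [B] Busemann functions of a ray -/

/-- L-BUS-B -/
theorem bus_anti (h : PMet X d) (hc : SegD X d c (Ici 0)) (hx : x ∈ X) : Antitone fun k : ℕ => d x (c k) - k := by
  refine antitone_nat_of_succ_le fun k => ?_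
  have hk : (0 : ℝ) ≤ k := Nat.cast_nonneg k
  have hk1 : (0 : ℝ) ≤ ((k + 1 : ℕ) : ℝ) := Nat.cast_nonneg _
  have h1 := h.tri x hx (c k) (hc.1 _ hk) (c ((k + 1 : ℕ) : ℝ)) (hc.1 _ hk1)
  have h2 := hc.2 k hk ((k + 1 : ℕ) : ℝ) hk1
  have h3 : |(k : ℝ) - ((k + 1 : ℕ) : ℝ)| = 1 := by
    push_cast
    rw [show (k : ℝ) - (k + 1) = -1 by ring]
    simp
  rw [h3] at h2
  have h4 : (((k + 1 : ℕ) : ℕ) : ℝ) = k + 1 := by push_cast; ring
  show d x (c ((k + 1 : ℕ) : ℝ)) - ((k + 1 : ℕ) : ℝ) ≤ d x (c k) - k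
  rw [h2] at h1
  linarith

/-- L-BUS-B -/
theorem bus_lower (h : PMet X d) (hc : SegD X d c (Ici 0)) (hx : x ∈ X) (k : ℕ) : - d x (c 0) ≤ d x (c k) - k := by
  have hk : (0 : ℝ) ≤ k := Nat.cast_nonneg k
  have h0 : (0 : ℝ) ∈ Ici (0 : ℝ) := mem_Ici.2 le_rfl
  have h1 := h.tri (c 0) (hc.1 _ h0) x hx (c k) (hc.1 _ hk)
  have h2 := hc.2 0 h0 k hk
  rw [zero_sub, abs_neg, abs_of_nonneg hk] at h2
  rw [h.symm (c 0) (hc.1 _ h0) x hx] at h1
  linarith

/-- L-BUS-B -/
theorem bus_bdd (h : PMet X d) (hc : SegD X d c (Ici 0)) (hx : x ∈ X) : BddBelow (range fun k : ℕ => d x (c k) - k) := by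
  refine ⟨- d x (c 0), ?_⟩
  rintro _ ⟨k, rfl⟩
  exact bus_lower h hc hx k

/-- L-BUS-B (`tendsto_atTop_ciInf`) -/
theorem bus_tendsto (h : PMet X d) (hc : SegD X d c (Ici 0)) (hx : x ∈ X) :
    Tendsto (fun k : ℕ => d x (c k) - k) atTop (𝓝 (busD d c x)) := by
  exact tendsto_atTop_ciInf (bus_anti h hc hx) (bus_bdd h hc hx)

/-- L-BUS-B.  real times: `t ↦ d x (c t) - t` is antitone on `[0, ∞)`, compare with `k ≥ t` -/
theorem bus_le (h : PMet X d) (hc : SegD X d c (Ici 0)) (hx : x ∈ X) {t : ℝ} (ht : 0 ≤ t) : busD d c x ≤ d x (c t) - t := by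
  obtain ⟨k, hk⟩ := exists_nat_ge t
  have hk0 : (0 : ℝ) ≤ k := Nat.cast_nonneg k
  have h1 : busD d c x ≤ d x (c k) - k := ciInf_le (bus_bdd h hc hx) k
  have h2 := h.tri x hx (c t) (hc.1 _ ht) (c k) (hc.1 _ hk0)
  have h3 := hc.2 t ht k hk0
  rw [abs_of_nonpos (by linarith)] at h3
  linarith

/-- L-BUS-B -/
theorem bus_lip (h : PMet X d) (hc : SegD X d c (Ici 0)) (hx : x ∈ X) (hy : y ∈ X) : busD d c x ≤ busD d c y + d x y := by
  have h1 := bus_tendsto h hc hx
  have h2 := (bus_tendsto h hc hy).add_const (d x y)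
  refine le_of_tendsto_of_tendsto' h1 h2 fun k => ?_
  have hk : (0 : ℝ) ≤ k := Nat.cast_nonneg k
  have := h.tri x hx y hy (c k) (hc.1 _ hk)
  linarith

/-- L-BUS-B -/
theorem bus_abs_lip (h : PMet X d) (hc : SegD X d c (Ici 0)) (hx : x ∈ X) (hy : y ∈ X) : |busD d c x - busD d c y| ≤ d x y := by
  rw [abs_le]
  have h1 := bus_lip h hc hx hy
  have h2 := bus_lip h hc hy hx
  rw [h.symm y hy x hx] at h2
  constructor <;> linarith

/-- L-BUS-B (`bus_abs_lip`, `PMet.cont_right`, `d x x = 0`) -/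
theorem bus_cont (h : PMet X d) (hc : SegD X d c (Ici 0)) : ContinuousOn (busD d c) X := by
  intro x hx
  have h1 : Tendsto (fun y => d x y) (𝓝[X] x) (𝓝 0) := by
    have := (h.cont_right hx) x hx
    unfold ContinuousWithinAt at this
    simp only [h.self x hx] at this
    exact this
  unfold ContinuousWithinAt
  rw [tendsto_iff_dist_tendsto_zero]
  refine squeeze_zero' (Eventually.of_forall fun _ => dist_nonneg) ?_ h1
  filter_upwards [self_mem_nhdsWithin] with y hy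
  rw [Real.dist_eq, abs_sub_comm]
  exact bus_abs_lip h hc hx hy

/-- L-BUS-B -/
theorem bus_on_ray (h : PMet X d) (hc : SegD X d c (Ici 0)) {t : ℝ} (ht : 0 ≤ t) : busD d c (c t) = -t := by
  have h1 := bus_tendsto h hc (hc.1 t ht)
  refine tendsto_nhds_unique h1 (tendsto_const_nhds.congr' ?_)
  obtain ⟨k0, hk0⟩ := exists_nat_ge t
  filter_upwards [eventually_ge_atTop k0] with k hk
  have hk' : t ≤ k := hk0.trans (by exact_mod_cast hk)
  rw [hc.2 t ht k (mem_Ici.2 (Nat.cast_nonneg k)), abs_of_nonpos (by linarith)]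
  ring

/-- L-BUS-B.  (for `k ≥ t`: `d (c t) (c k) - k = -t`) -/
theorem bus_on_line (h : PMet X d) (hc : SegD X d c univ) (t : ℝ) : busD d c (c t) = -t := by
  have hr : SegD X d c (Ici 0) := hc.mono (subset_univ _)
  have h1 := bus_tendsto h hr (hc.1 t (mem_univ _))
  refine tendsto_nhds_unique h1 (tendsto_const_nhds.congr' ?_)
  obtain ⟨k0, hk0⟩ := exists_nat_ge t
  filter_upwards [eventually_ge_atTop k0] with k hk
  have hk' : t ≤ k := hk0.trans (by exact_mod_cast hk)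
  rw [hc.2 t (mem_univ _) k (mem_univ _), abs_of_nonpos (by linarith)]
  ring

/-- L-BUS-B.  `d x (c k) + d x (c (-k)) ≥ 2k` -/
theorem bus_sum_nonneg (h : PMet X d) (hc : SegD X d c univ) (hx : x ∈ X) : 0 ≤ busD d c x + busD d (fun t => c (-t)) x := by
  have hr : SegD X d c (Ici 0) := hc.mono (subset_univ _)
  have hr' : SegD X d (fun t => c (-t)) (Ici 0) := hc.neg.mono (subset_univ _)
  have h1 := (bus_tendsto h hr hx).add (bus_tendsto h hr' hx)
  refine ge_of_tendsto' h1 fun k => ?_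
  have hk : (0 : ℝ) ≤ k := Nat.cast_nonneg k
  have h2 := h.tri (c k) (hc.1 _ (mem_univ _)) x hx (c (-k)) (hc.1 _ (mem_univ _))
  have h3 := hc.2 k (mem_univ _) (-k) (mem_univ _)
  rw [show (k : ℝ) - -k = 2 * k by ring, abs_of_nonneg (by linarith)] at h3
  rw [h.symm (c k) (hc.1 _ (mem_univ _)) x hx] at h2
  show 0 ≤ d x (c k) - k + (d x (c (-k)) - k)
  linarith

/-! ## [R] asymptotic rays -/

/-- L-BUS-RAY, **asymptotic rays**.
PLAN.  `l k = d x (c k) ≥ k - d x (c 0) → ∞`; `γ k` a segment from `x` to `c k` (`hseg`); `pm_limit` with `K = {x}`, `a k = 0`, `b k = l k`: the limit domain is `Ici 0`; `ρ 0 = x`.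
For `t ≥ 0` and `k` large: `busD d c (ρ t) ≤ d (ρ t) (c k) - k ≤ d (ρ t) (γ k t) + (l k - t) - k`; along `𝒰`: `d (ρ t) (γ k t) → 0` (`cont_right`, `self`), `l k - k → busD d c x` (`bus_tendsto`, `𝒰 ≤ atTop`):
`busD d c (ρ t) ≤ busD d c x - t` (`ge_of_tendsto`).  The other inequality is `bus_lip`. -/
theorem bus_ray [T2Space V] (h : PMet X d) (hseg : HasSegD X d) (hc : SegD X d c (Ici 0)) (hx : x ∈ X) :
    ∃ ρ : ℝ → V, SegD X d ρ (Ici 0) ∧ ρ 0 = x ∧ ∀ t, 0 ≤ t → busD d c (ρ t) = busD d c x - t := by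
  have hU : ((hyperfilter ℕ : Ultrafilter ℕ) : Filter ℕ) ≤ atTop := by
    rw [← Nat.cofinite_eq_atTop]; exact hyperfilter_le_cofinite
  have hck : ∀ k : ℕ, c k ∈ X := fun k => hc.1 k (mem_Ici.2 (Nat.cast_nonneg k))
  choose γ hγ0 hγ1 hγs using fun k : ℕ => hseg x hx (c k) (hck k)
  obtain ⟨ρ, hρ0, hρs, hρt⟩ := pm_limit h (K := {x}) isCompact_singleton (singleton_subset_iff.2 hx) γ (fun _ => 0)
    (fun k => d x (c k)) (fun k => by rw [hγ0 k]; exact mem_singleton x)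
    (fun k => ⟨le_refl _, h.nonneg hx (hck k)⟩) hγs
  have hρ0' : ρ 0 = x := hρ0
  have hdom : ∀ t : ℝ, 0 ≤ t → ∀ᶠ k : ℕ in atTop, t ∈ Icc (0 : ℝ) (d x (c k)) := by
    intro t ht
    filter_upwards [eventually_ge_atTop ⌈t + d x (c 0)⌉₊] with k hk
    refine ⟨ht, ?_⟩
    have h1 := bus_lower h hc hx k
    have h2 : t + d x (c 0) ≤ k := (Nat.le_ceil _).trans (by exact_mod_cast hk)
    have h3 : c ((0 : ℕ) : ℝ) = c 0 := by norm_num
    linarith
  have hρS : SegD X d ρ (Ici 0) := hρs.mono fun t ht => hdom t ht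
  refine ⟨ρ, hρS, hρ0', fun t ht => le_antisymm ?_ ?_⟩
  · have hρX : ρ t ∈ X := hρS.1 t ht
    have h1 : Tendsto (fun k => γ k t) (hyperfilter ℕ : Filter ℕ) (𝓝[X] (ρ t)) := by
      refine tendsto_nhdsWithin_iff.2 ⟨hρt t (hdom t ht), ?_⟩
      filter_upwards [hU (hdom t ht)] with k hk
      exact (hγs k).1 t hk
    have h2 : Tendsto (fun k => d (ρ t) (γ k t)) (hyperfilter ℕ : Filter ℕ) (𝓝 0) := by
      have := ((h.cont_right hρX) (ρ t) hρX).tendsto.comp h1
      rw [h.self _ hρX] at this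
      exact this
    have h3 : Tendsto (fun k : ℕ => d x (c k) - k) (hyperfilter ℕ : Filter ℕ) (𝓝 (busD d c x)) :=
      (bus_tendsto h hc hx).mono_left hU
    have h4 : Tendsto (fun k : ℕ => d (ρ t) (γ k t) + (d x (c k) - k) - t) (hyperfilter ℕ : Filter ℕ)
        (𝓝 (0 + busD d c x - t)) := (h2.add h3).sub_const t
    rw [zero_add] at h4
    refine ge_of_tendsto h4 ?_
    filter_upwards [hU (hdom t ht)] with k hk
    have h5 := bus_le h hc hρX (Nat.cast_nonneg k)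
    have h6 := h.tri _ hρX _ ((hγs k).1 t hk) _ (hck k)
    have h7 := (hγs k).2 t hk (d x (c k)) ⟨h.nonneg hx (hck k), le_refl _⟩
    rw [hγ1 k, abs_sub_comm, abs_of_nonneg (by linarith [hk.2])] at h7
    linarith
  · have h1 := bus_lip h hc hx (hρS.1 t ht)
    have h2 := hρS.2 0 (mem_Ici.2 le_rfl) t ht
    rw [hρ0', zero_sub, abs_neg, abs_of_nonneg ht] at h2
    linarith

/-- the support inequality -/
theorem bus_supp (h : PMet X d) (hc : SegD X d c (Ici 0)) {ρ : ℝ → V} (hρ : SegD X d ρ (Ici 0))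
    (hb : ∀ t, 0 ≤ t → busD d c (ρ t) = busD d c x - t) (hy : y ∈ X) {t : ℝ} (ht : 0 ≤ t) :
    busD d c y ≤ busD d c x - t + d y (ρ t) := by
  rw [← hb t ht]
  exact bus_lip h hc hy (hρ.1 t ht)

/-- L-BUS-THR, **a line through every point**.
PLAN.  `ρ⁺`, `ρ⁻` asymptotic rays at `x` of `c` and of `c ∘ neg` (`bus_ray`, `SegD.neg`, `SegD.mono`); `σ t = if 0 ≤ t then ρ⁺ t else ρ⁻ (-t)`.  For `s ≥ 0 > t`, `τ = -t`: `d (ρ⁺ s) (ρ⁻ τ) ≤ s + τ` (triangle through `x`) and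
`≥ b⁺ (ρ⁻ τ) - b⁺ (ρ⁺ s) = - b⁻ (ρ⁻ τ) - b⁺ x + s = - b⁻ x + τ - b⁺ x + s = s + τ` (`bus_lip`, `hz`).  Slope for `t < 0`: `b⁺ (ρ⁻ τ) = - b⁻ (ρ⁻ τ) = - b⁻ x + τ = b⁺ x - t`. -/
theorem bus_line_through [T2Space V] (h : PMet X d) (hseg : HasSegD X d) (hc : SegD X d c univ)
    (hz : ∀ x ∈ X, busD d c x + busD d (fun t => c (-t)) x = 0) (hx : x ∈ X) :
    ∃ σ : ℝ → V, SegD X d σ univ ∧ σ 0 = x ∧ ∀ t, busD d c (σ t) = busD d c x - t := by
  have hcp : SegD X d c (Ici 0) := hc.mono (subset_univ _)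
  have hcm : SegD X d (fun t => c (-t)) (Ici 0) := hc.neg.mono (subset_univ _)
  obtain ⟨ρp, hρp, hρp0, hbp⟩ := bus_ray h hseg hcp hx
  obtain ⟨ρm, hρm, hρm0, hbm⟩ := bus_ray h hseg hcm hx
  have hmem : ∀ t : ℝ, (if 0 ≤ t then ρp t else ρm (-t)) ∈ X := by
    intro t
    split_ifs with ht
    · exact hρp.1 t ht
    · exact hρm.1 (-t) (by simp only [mem_Ici]; linarith)
  have hslope : ∀ t : ℝ, busD d c (if 0 ≤ t then ρp t else ρm (-t)) = busD d c x - t := by
    intro t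
    split_ifs with ht
    · exact hbp t ht
    · have hτ : 0 ≤ -t := by linarith
      have h1 := hz (ρm (-t)) (hρm.1 (-t) hτ)
      have h2 := hbm (-t) hτ
      have h3 := hz x hx
      linarith
  have hmix : ∀ s t : ℝ, 0 ≤ s → ¬ 0 ≤ t → d (ρp s) (ρm (-t)) ≤ s - t := by
    intro s t hs ht
    have hτ : 0 ≤ -t := by linarith
    have h1 := h.tri (ρp s) (hρp.1 s hs) x hx (ρm (-t)) (hρm.1 (-t) hτ)
    have h2 : d (ρp s) x = s := by
      have := hρp.2 s hs 0 (by simp)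
      rw [hρp0, sub_zero, abs_of_nonneg hs] at this
      exact this
    have h3 : d x (ρm (-t)) = -t := by
      have := hρm.2 0 (by simp) (-t) hτ
      rw [hρm0, zero_sub, abs_neg, abs_of_nonneg hτ] at this
      exact this
    linarith
  refine ⟨fun t => if 0 ≤ t then ρp t else ρm (-t), ⟨fun s _ => hmem s, fun s _ t _ => ?_⟩, ?_, hslope⟩
  · refine le_antisymm ?_ ?_
    · show d (if 0 ≤ s then ρp s else ρm (-s)) (if 0 ≤ t then ρp t else ρm (-t)) ≤ |s - t|
      by_cases hs : 0 ≤ s <;> by_cases ht : 0 ≤ t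
      · rw [if_pos hs, if_pos ht]
        exact (hρp.2 s hs t ht).le
      · rw [if_pos hs, if_neg ht]
        exact (hmix s t hs ht).trans (le_abs_self _)
      · rw [if_neg hs, if_pos ht, h.symm _ (hρm.1 (-s) (by simp only [mem_Ici]; linarith)) _ (hρp.1 t ht)]
        exact (hmix t s ht hs).trans (by rw [abs_sub_comm]; exact le_abs_self _)
      · rw [if_neg hs, if_neg ht, hρm.2 (-s) (by simp only [mem_Ici]; linarith) (-t) (by simp only [mem_Ici]; linarith)]
        rw [show -s - -t = -(s - t) by ring, abs_neg]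
    · have h1 := bus_abs_lip h hcp (hmem s) (hmem t)
      rw [hslope s, hslope t] at h1
      have e : busD d c x - s - (busD d c x - t) = -(s - t) := by ring
      rw [e, abs_neg] at h1
      exact h1
  · show (if (0 : ℝ) ≤ 0 then ρp 0 else ρm (-0)) = x
    rw [if_pos le_rfl, hρp0]

end Claimed.Agent.R314
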