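import Claimed.Agent.R314.C.Defs
import Claimed.Agent.R314.Bus.Met
import Claimed.Agent.R314.Bus.Hopf

/-!
# Row 314, block (C), package BUS, file 3: BUSEMANN FUNCTIONS ON A COMPLETE RIEMANNIAN MANIFOLD      (architect helper111)

`(X, g)` complete connected Riemannian `n`-manifold in the language of row 315 (`BusGeo n X g`), `d = rdist X g`.
* `IsSeg X g c S`, `IsLine X g c`, `UpperSupp n X f s x` : `C/Defs.lean` (`IsSeg` = `SegD` of `Bus/Met.lean` at `d = rdist X g`, by `Iff.rfl`);  `bus X g c` = `busD (rdist X g) c`;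
* INTERFACES, as hypotheses: `HasSeg X g` (GEO: Hopf-Rinow), `HasLapSupp n X g` (SV + `RicFlat`: Laplacian comparison in the support sense);
* `bus_pmet`   : `PMet X (rdist X g)`;
* `bus_barrier`: `b⁺ + b⁻` is superharmonic in the barrier sense;
* `bus_zero`   : `b⁺ + b⁻ = 0` for a line;
* **`bus_exit`** : the exit of the package (what REG' and AFF consume);
* `bus_far_line` : lines from long segments, recentred by isometries (for AFF).
-/

set_option autoImplicit false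
set_option linter.unusedSectionVars false
open scoped ContDiff Topology
open Set Filter Claims.C0499 Claimed.Agent.R315

namespace Claimed.Agent.R314

variable {V : Type} [NormedAddCommGroup V] [NormedSpace ℝ V] [FiniteDimensional ℝ V]

/-- complete connected Riemannian manifold -/
structure BusGeo (n : ℕ) (X : Set V) (g : Ten V) : Prop where
  mfd : IsMfd n X
  conn : IsConnected X
  met : IsMetricOn n X g
  proper : IsProperOn X g

theorem UCont.busGeo {n : ℕ} {X : Set V} {g : Ten V} (h : UCont n X g) : BusGeo n X g :=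
  ⟨h.mfd, h.conn, h.met, h.proper⟩

theorem CM.busGeo {n : ℕ} {X : Set V} {g : Ten V} (h : CM n X g) : BusGeo n X g :=
  ⟨h.mfd, h.conn, h.met, h.proper⟩

/-- `IsSeg` of `C/Defs.lean` is `SegD` of `Bus/Met.lean` at `d = rdist X g` -/
theorem IsSeg.segD {X : Set V} {g : Ten V} {c : ℝ → V} {S : Set ℝ} (h : IsSeg X g c S) : SegD X (rdist X g) c S := h

theorem SegD.isSeg {X : Set V} {g : Ten V} {c : ℝ → V} {S : Set ℝ} (h : SegD X (rdist X g) c S) : IsSeg X g c S := h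

/-- Busemann function of the ray `c|[0,∞)` -/
noncomputable def bus (X : Set V) (g : Ten V) (c : ℝ → V) (x : V) : ℝ := busD (rdist X g) c x

/-- `UpperSupp` of `C/Defs.lean` with an explicit neighbourhood -/
theorem bus_upperSupp_iff {n : ℕ} {X : Set V} {f s : V → ℝ} {x : V} :
    UpperSupp n X f s x ↔ SmoothAlong n X s ∧ s x = f x ∧ ∃ O ∈ 𝓝 x, ∀ y ∈ X ∩ O, f y ≤ s y := by
  constructor
  · rintro ⟨h1, h2, h3⟩
    refine ⟨h1, h3, _, eventually_nhdsWithin_iff.1 h2, fun y hy => hy.2 hy.1⟩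
  · rintro ⟨h1, h3, O, hO, h2⟩
    refine ⟨h1, eventually_nhdsWithin_iff.2 ?_, h3⟩
    filter_upwards [hO] with y hy hyX
    exact h2 y ⟨hyX, hy⟩

/-- INTERFACE (GEO): any two points are joined by a metric segment -/
def HasSeg (X : Set V) (g : Ten V) : Prop := HasSegD X (rdist X g)

/-- INTERFACE (SV + `RicFlat`): Laplacian comparison for the distance functions, in the support sense -/
def HasLapSupp (n : ℕ) (X : Set V) (g : Ten V) : Prop :=
  ∀ o ∈ X, ∀ x ∈ X, o ≠ x → ∃ s : V → ℝ, UpperSupp n X (rdist X g o) s x ∧ lap n X g s x ≤ ((n : ℝ) - 1) / rdist X g o x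

variable {n : ℕ} {X : Set V} {g : Ten V} {c : ℝ → V} {x : V}

/-- L-BUS-PMET (`if_isRd`, `if_rdist_continuousOn₂`, `if_isMetricOn_iff`) -/
theorem bus_pmet (h : BusGeo n X g) : PMet X (rdist X g) := by
  have hr := if_isRd h.mfd h.conn h.met
  exact ⟨hr.self, hr.symm, hr.tri, if_rdist_continuousOn₂ h.mfd h.conn.isPreconnected (if_isMetricOn_iff.1 h.met).1, h.proper⟩

/-- L-BUS-SUPP.  algebra of support functions: sums and constants.  (`lap` of a sum: `if_lap_eq` in a parametrisation at `x` (`h.mfd`), `rm_lap_add`, `rm_lap_const`.) -/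
theorem bus_supp_add (h : BusGeo n X g) (hx : x ∈ X) {f₁ f₂ s₁ s₂ : V → ℝ} (a : ℝ) (h₁ : UpperSupp n X f₁ s₁ x) (h₂ : UpperSupp n X f₂ s₂ x) :
    UpperSupp n X (fun y => f₁ y + f₂ y + a) (fun y => s₁ y + s₂ y + a) x ∧
      lap n X g (fun y => s₁ y + s₂ y + a) x = lap n X g s₁ x + lap n X g s₂ x := by
  obtain ⟨a1, a2, O₁, hO₁, a3⟩ := bus_upperSupp_iff.1 h₁
  obtain ⟨b1, b2, O₂, hO₂, b3⟩ := bus_upperSupp_iff.1 h₂
  have hs : SmoothAlong n X (fun y => s₁ y + s₂ y + a) := fun ψ U hp => ((a1 ψ U hp).add (b1 ψ U hp)).add contDiffOn_const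
  refine ⟨bus_upperSupp_iff.2 ⟨hs, ?_, O₁ ∩ O₂, Filter.inter_mem hO₁ hO₂, fun y hy => ?_⟩, ?_⟩
  · show s₁ x + s₂ x + a = f₁ x + f₂ x + a
    rw [a2, b2]
  · have c1 := a3 y ⟨hy.1, hy.2.1⟩
    have c2 := b3 y ⟨hy.1, hy.2.2⟩
    show f₁ y + f₂ y + a ≤ s₁ y + s₂ y + a
    linarith
  · obtain ⟨ψ, U, hp, u, hu, rfl⟩ := h.mfd x hx
    have hG : rm_Met (cm g ψ) U := ⟨if_open hp, (h.met ψ U hp).1, (h.met ψ U hp).2⟩
    rw [if_lap_eq h.met hs hp hu, if_lap_eq h.met a1 hp hu, if_lap_eq h.met b1 hp hu]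
    have e1 : lapC (cm g ψ) ((fun y => s₁ y + s₂ y + a) ∘ ψ) u
        = lapC (cm g ψ) (fun w => (fun w => (s₁ ∘ ψ) w + (s₂ ∘ ψ) w) w + (fun _ => a) w) u := rfl
    rw [e1, rm_lap_add hG hu ((a1 ψ U hp).add (b1 ψ U hp)) contDiffOn_const, rm_lap_const, add_zero,
      rm_lap_add hG hu (a1 ψ U hp) (b1 ψ U hp)]

/-- L-BUS-SUPP.  a support function of a larger function which touches -/
theorem UpperSupp.of_le {f f' s : V → ℝ} (h : UpperSupp n X f' s x) (hle : ∀ y ∈ X, f y ≤ f' y) (he : f x = f' x) : UpperSupp n X f s x := by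
  obtain ⟨h1, h2, O, hO, h3⟩ := bus_upperSupp_iff.1 h
  exact bus_upperSupp_iff.2 ⟨h1, h2.trans he.symm, O, hO, fun y hy => (hle y hy.1).trans (h3 y hy)⟩

/-- L-BUS-BAR, **`b⁺ + b⁻` is superharmonic in the barrier sense**.
PLAN.  `l = max 1 (4 n / ε)`-like.  `ρ±` asymptotic rays at `x` (`bus_ray` for `c` and `c ∘ neg`), `o± = ρ± l`, `rdist x o± = l > 0` so `o± ≠ x`.  `hsv` at `(o±, x)`: `s±`.
`bus c y ≤ bus c x - l + rdist o⁺ y` with equality at `y = x` (`bus_supp`, symmetry of `rdist`).  So `s = s⁺ + s⁻ + (bus c x + bus (c∘neg) x - 2 l)` (`bus_supp_add`, `UpperSupp.of_le`), `lap s ≤ 2 (n-1)/l ≤ ε`. -/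
theorem bus_barrier (h : BusGeo n X g) (hseg : HasSeg X g) (hsv : HasLapSupp n X g) (hc : IsLine X g c) (hx : x ∈ X) {ε : ℝ} (hε : 0 < ε) :
    ∃ s : V → ℝ, UpperSupp n X (fun y => bus X g c y + bus X g (fun t => c (-t)) y) s x ∧ lap n X g s x ≤ ε := by
  have hP := bus_pmet h
  have hcp : SegD X (rdist X g) c (Ici 0) := SegD.mono hc (subset_univ _)
  have hcn : SegD X (rdist X g) (fun t => c (-t)) (Ici 0) := SegD.mono (SegD.neg hc) (subset_univ _)
  obtain ⟨l, hl⟩ : ∃ l : ℝ, l = max 1 (2 * n / ε) := ⟨_, rfl⟩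
  have hl1 : 1 ≤ l := by rw [hl]; exact le_max_left _ _
  have hl0 : 0 < l := by linarith
  have hlε : 2 * (n : ℝ) ≤ ε * l := by
    have : 2 * n / ε ≤ l := by rw [hl]; exact le_max_right _ _
    rw [div_le_iff₀ hε] at this
    linarith
  have hlI : l ∈ Ici (0 : ℝ) := mem_Ici.2 hl0.le
  have h0I : (0 : ℝ) ∈ Ici (0 : ℝ) := mem_Ici.2 le_rfl
  -- one ray
  have key : ∀ c' : ℝ → V, SegD X (rdist X g) c' (Ici 0) → ∃ (o : V) (s : V → ℝ), o ∈ X ∧ rdist X g o x = l ∧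
      UpperSupp n X (rdist X g o) s x ∧ lap n X g s x ≤ ((n : ℝ) - 1) / l ∧
      ∀ y ∈ X, busD (rdist X g) c' y ≤ busD (rdist X g) c' x - l + rdist X g o y := by
    intro c' hc'
    obtain ⟨ρ, hρ, hρ0, hb⟩ := bus_ray hP hseg hc' hx
    have ho : ρ l ∈ X := hρ.1 l hlI
    have hd : rdist X g x (ρ l) = l := by
      have := hρ.2 0 h0I l hlI
      rw [hρ0, zero_sub, abs_neg, abs_of_pos hl0] at this
      exact this
    have hd' : rdist X g (ρ l) x = l := by rw [hP.symm _ ho _ hx]; exact hd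
    have hne : ρ l ≠ x := by
      intro he
      rw [he, hP.self x hx] at hd
      linarith
    obtain ⟨s, hs1, hs2⟩ := hsv (ρ l) ho x hx hne
    rw [hd'] at hs2
    refine ⟨ρ l, s, ho, hd', hs1, hs2, fun y hy => ?_⟩
    have := bus_supp hP hc' hρ hb hy hl0.le
    rwa [hP.symm _ hy _ ho] at this
  obtain ⟨op, sp, hop, dp, up, lp, bp⟩ := key c hcp
  obtain ⟨om, sm, hom, dm, um, lm, bm⟩ := key _ hcn
  obtain ⟨q1, q2⟩ := bus_supp_add h hx (bus X g c x + bus X g (fun t => c (-t)) x - 2 * l) up um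
  refine ⟨_, UpperSupp.of_le q1 (fun y hy => ?_) ?_, ?_⟩
  · have e1 := bp y hy
    have e2 := bm y hy
    show busD (rdist X g) c y + busD (rdist X g) (fun t => c (-t)) y
      ≤ rdist X g op y + rdist X g om y + (busD (rdist X g) c x + busD (rdist X g) (fun t => c (-t)) x - 2 * l)
    linarith
  · show bus X g c x + bus X g (fun t => c (-t)) x
      = rdist X g op x + rdist X g om x + (bus X g c x + bus X g (fun t => c (-t)) x - 2 * l)
    rw [dp, dm]
    ring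
  · rw [q2]
    have : ((n : ℝ) - 1) / l + ((n : ℝ) - 1) / l ≤ ε := by
      rw [← add_div, div_le_iff₀ hl0]
      linarith
    linarith

/-- L-BUS-ZERO, **`b⁺ + b⁻ = 0`**.
PLAN.  `f = b⁺ + b⁻` is continuous on `X` (`bus_cont`), `≥ 0` (`bus_sum_nonneg`), `f (c 0) = 0` (`bus_on_line`).  `Z = {x ∈ X | f x = 0}`.  OPEN in `X`: for `x ∈ Z` take a parametrisation `(ψ, U)`, `ψ u = x`;
`bus_hopf` for `G = cm g ψ` (`rm_Met`: `⟨if_open hp, (h.met ψ U hp).1, (h.met ψ U hp).2⟩`), `f ∘ ψ`; barrier at `u' ∈ U`: `s ∘ ψ`, `s` from `bus_barrier` at `ψ u'` (`if_lap_eq`; `f ∘ ψ ≤ s ∘ ψ` near `u'` by continuity of `ψ`);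
`ψ '' {u ∈ U | f (ψ u) = 0}` is relatively open in `X` (`if_image_open`).  CLOSED in `X` by continuity.  `X` is preconnected (`h.conn`): e.g. `isPreconnected_iff_subset_of_disjoint` or pass to the subtype `X` and `IsClopen.eq_univ`. -/
theorem bus_zero (h : BusGeo n X g) (hseg : HasSeg X g) (hsv : HasLapSupp n X g) (hc : IsLine X g c) :
    ∀ x ∈ X, bus X g c x + bus X g (fun t => c (-t)) x = 0 := by
  have hP := bus_pmet h
  obtain ⟨f, hf⟩ : ∃ f : V → ℝ, f = fun y => bus X g c y + bus X g (fun t => c (-t)) y := ⟨_, rfl⟩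
  have hcn : SegD X (rdist X g) (fun t => c (-t)) univ := SegD.neg hc
  have hcont : ContinuousOn f X := by
    rw [hf]
    exact (bus_cont hP (SegD.mono hc (subset_univ _))).add (bus_cont hP (hcn.mono (subset_univ _)))
  have hnn : ∀ x ∈ X, 0 ≤ f x := fun x hx => by
    rw [hf]
    exact bus_sum_nonneg hP hc hx
  have h00 : f (c 0) = 0 := by
    have e1 := bus_on_line hP hc 0
    have e2 := bus_on_line hP hcn 0
    simp only [neg_zero] at e1 e2
    rw [hf]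
    show busD (rdist X g) c (c 0) + busD (rdist X g) (fun t => c (-t)) (c 0) = 0
    rw [e1, e2, add_zero]
  have hc0 : c 0 ∈ X := hc.1 0 (mem_univ _)
  -- the zero set is relatively open
  have hopen : ∀ x ∈ X, f x = 0 → ∃ O : Set V, IsOpen O ∧ x ∈ O ∧ ∀ y ∈ X ∩ O, f y = 0 := by
    intro x hx hfx
    obtain ⟨ψ, U, hp, u, hu, rfl⟩ := h.mfd x hx
    have hG : rm_Met (cm g ψ) U := ⟨if_open hp, (h.met ψ U hp).1, (h.met ψ U hp).2⟩
    have hψX : ∀ u ∈ U, ψ u ∈ X := fun u hu => by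
      obtain ⟨O, -, hO⟩ := hp.2.2.2.2.1
      have : ψ u ∈ ψ '' U := ⟨u, hu, rfl⟩
      rw [hO] at this
      exact this.1
    have hψc : ContinuousOn ψ U := (if_smooth hp).continuousOn
    have hW := bus_hopf hG (f := f ∘ ψ) (hcont.comp hψc hψX) (fun u hu => hnn _ (hψX u hu)) (fun u' hu' ε hε => by
      obtain ⟨s, hs0, hs4⟩ := bus_barrier h hseg hsv hc (hψX u' hu') hε
      rw [← hf] at hs0
      obtain ⟨hs1, hs2, O, hO, hs3⟩ := bus_upperSupp_iff.1 hs0
      refine ⟨s ∘ ψ, hs1 ψ U hp, hs2, ?_, ?_⟩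
      · have hU' : U ∈ 𝓝 u' := (if_open hp).mem_nhds hu'
        have h2 : ψ ⁻¹' O ∈ 𝓝 u' := (hψc.continuousAt hU').preimage_mem_nhds hO
        filter_upwards [hU', h2] with w hw1 hw2
        exact hs3 _ ⟨hψX w hw1, hw2⟩
      · rw [← if_lap_eq h.met hs1 hp hu']
        exact hs4)
    obtain ⟨O, hO, hOe⟩ := if_image_open hp hW (fun u hu => hu.1)
    refine ⟨O, hO, ?_, ?_⟩
    · have : ψ u ∈ ψ '' {u | u ∈ U ∧ (f ∘ ψ) u = 0} := ⟨u, ⟨hu, hfx⟩, rfl⟩
      rw [hOe] at this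
      exact this.2
    · intro y hy
      rw [← hOe] at hy
      obtain ⟨w, hw, rfl⟩ := hy
      exact hw.2
  -- connectedness
  intro x hx
  show (fun y => bus X g c y + bus X g (fun t => c (-t)) y) x = 0
  rw [← hf]
  by_contra hne
  choose! O hO1 hO2 hO3 using hopen
  obtain ⟨v, hv, hve⟩ := (continuousOn_iff'.1 hcont) {0}ᶜ isOpen_compl_singleton
  have hu : IsOpen (⋃ z ∈ {z | z ∈ X ∧ f z = 0}, O z) := isOpen_biUnion fun z hz => hO1 z hz.1 hz.2
  have hcov : X ⊆ (⋃ z ∈ {z | z ∈ X ∧ f z = 0}, O z) ∪ v := fun y hy => by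
    by_cases hy0 : f y = 0
    · exact Or.inl (mem_biUnion (show y ∈ {z | z ∈ X ∧ f z = 0} from ⟨hy, hy0⟩) (hO2 y hy hy0))
    · have : y ∈ f ⁻¹' {0}ᶜ ∩ X := ⟨hy0, hy⟩
      rw [hve] at this
      exact Or.inr this.1
  obtain ⟨y, hyX, hyu, hyv⟩ := h.conn.isPreconnected _ v hu hv hcov
    ⟨c 0, hc0, mem_biUnion (show c 0 ∈ {z | z ∈ X ∧ f z = 0} from ⟨hc0, h00⟩) (hO2 _ hc0 h00)⟩
    ⟨x, hx, by
      have : x ∈ f ⁻¹' {0}ᶜ ∩ X := ⟨hne, hx⟩
      rw [hve] at this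
      exact this.1⟩
  obtain ⟨z, hz, hyz⟩ := mem_iUnion₂.1 hyu
  have e1 := hO3 z hz.1 hz.2 y ⟨hyX, hyz⟩
  have e2 : y ∈ f ⁻¹' {0}ᶜ ∩ X := by
    rw [hve]
    exact ⟨hyv, hyX⟩
  exact e2.1 e1

/-- **EXIT OF THE PACKAGE BUS**: the Busemann function `b = b⁻ = - b⁺` of a line. -/
theorem bus_exit (h : BusGeo n X g) (hseg : HasSeg X g) (hsv : HasLapSupp n X g) (hc : IsLine X g c) :
    ∃ b : V → ℝ, (∀ x ∈ X, ∀ y ∈ X, |b x - b y| ≤ rdist X g x y) ∧
      (∀ x ∈ X, ∃ σ : ℝ → V, IsLine X g σ ∧ σ 0 = x ∧ ∀ t, b (σ t) = b x + t) ∧ ∀ t, b (c t) = t := by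
  have hP := bus_pmet h
  have hz := bus_zero h hseg hsv hc
  have hcn : SegD X (rdist X g) (fun t => c (-t)) univ := SegD.neg hc
  refine ⟨bus X g fun t => c (-t), fun x hx y hy => bus_abs_lip hP (hcn.mono (subset_univ _)) hx hy, fun x hx => ?_, fun t => ?_⟩
  · obtain ⟨σ, h1, h2, h3⟩ := bus_line_through hP hseg hc hz hx
    refine ⟨σ, h1, h2, fun t => ?_⟩
    have e1 := hz (σ t) (h1.1 t (mem_univ _))
    have e2 := hz x hx
    have e3 := h3 t
    unfold bus at e1 e2 ⊢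
    linarith
  · have := bus_on_line hP hcn (-t)
    simp only [neg_neg] at this
    exact this

/-- L-BUS-FAR, **lines from long segments** (recentring by isometries).
PLAN.  `l k = rdist (x k) (y k) / 2`; `e k` a segment from `x k` to `y k` (`hseg`); `γ k` an isometry with `γ k (e k (l k)) ∈ K` (`hU.cocpt`); `c k t = γ k (e k (t + l k))` is a segment on `Icc (-l k) (l k)` (`UCont.iso_rdist`, `IsLocI.mapsTo` of `R314/Iso.lean`);
`pm_limit`; the limit domain is `univ` because `l k → ∞`. -/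
theorem bus_far_line (hU : UCont n X g) (hseg : HasSeg X g) (x y : ℕ → V) (hx : ∀ k, x k ∈ X) (hy : ∀ k, y k ∈ X)
    (hd : Tendsto (fun k => rdist X g (x k) (y k)) atTop atTop) :
    ∃ (γ : ℕ → V → V) (c : ℕ → ℝ → V) (σ : ℝ → V), (∀ k, IsIso n X g (γ k)) ∧
      (∀ k, IsSeg X g (c k) (Icc (-(rdist X g (x k) (y k) / 2)) (rdist X g (x k) (y k) / 2)) ∧
        c k (-(rdist X g (x k) (y k) / 2)) = γ k (x k) ∧ c k (rdist X g (x k) (y k) / 2) = γ k (y k)) ∧
      IsLine X g σ ∧ ∀ t, Tendsto (fun k => c k t) (hyperfilter ℕ : Filter ℕ) (𝓝 (σ t)) := by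
  have hP : PMet X (rdist X g) := bus_pmet hU.busGeo
  obtain ⟨K, hK, hKX, hcov⟩ := hU.cocpt
  have hl : ∀ k, 0 ≤ rdist X g (x k) (y k) / 2 := fun k => div_nonneg (hP.nonneg (hx k) (hy k)) (by norm_num)
  choose e he0 he1 hes using fun k : ℕ => hseg (x k) (hx k) (y k) (hy k)
  have hmid : ∀ k, rdist X g (x k) (y k) / 2 ∈ Icc (0 : ℝ) (rdist X g (x k) (y k)) := fun k =>
    ⟨hl k, by have := hl k; linarith⟩
  choose γ hγ hγK using fun k : ℕ => hcov (e k (rdist X g (x k) (y k) / 2)) ((hes k).1 _ (hmid k))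
  have hsh : ∀ k, ∀ t ∈ Icc (-(rdist X g (x k) (y k) / 2)) (rdist X g (x k) (y k) / 2),
      t + rdist X g (x k) (y k) / 2 ∈ Icc (0 : ℝ) (rdist X g (x k) (y k)) := fun k t ht =>
    ⟨by have := ht.1; linarith, by have := ht.2; linarith⟩
  have hcs : ∀ k, SegD X (rdist X g) (fun t => γ k (e k (t + rdist X g (x k) (y k) / 2)))
      (Icc (-(rdist X g (x k) (y k) / 2)) (rdist X g (x k) (y k) / 2)) := fun k =>
    ⟨fun s hs => (hγ k).locI.mapsTo hU.mfd ((hes k).1 _ (hsh k s hs)), fun s hs t ht => by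
      rw [hU.iso_rdist (hγ k) ((hes k).1 _ (hsh k s hs)) ((hes k).1 _ (hsh k t ht)),
        (hes k).2 _ (hsh k s hs) _ (hsh k t ht)]
      congr 1; ring⟩
  obtain ⟨σ, -, hσs, hσt⟩ := pm_limit hP hK hKX (fun k t => γ k (e k (t + rdist X g (x k) (y k) / 2)))
    (fun k => -(rdist X g (x k) (y k) / 2)) (fun k => rdist X g (x k) (y k) / 2)
    (fun k => by simpa using hγK k) (fun k => ⟨by have := hl k; linarith, hl k⟩) hcs
  have hdom : ∀ t : ℝ, ∀ᶠ k in atTop, t ∈ Icc (-(rdist X g (x k) (y k) / 2)) (rdist X g (x k) (y k) / 2) := by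
    intro t
    filter_upwards [hd.eventually_ge_atTop (2 * |t|)] with k hk
    have h1 := le_abs_self t
    have h2 := neg_abs_le t
    exact ⟨by linarith, by linarith⟩
  refine ⟨γ, fun k t => γ k (e k (t + rdist X g (x k) (y k) / 2)), σ, hγ, fun k => ⟨hcs k, ?_, ?_⟩,
    hσs.mono fun t _ => hdom t, fun t => hσt t (hdom t)⟩
  · show γ k (e k (-(rdist X g (x k) (y k) / 2) + rdist X g (x k) (y k) / 2)) = γ k (x k)
    rw [neg_add_cancel, he0 k]
  · show γ k (e k (rdist X g (x k) (y k) / 2 + rdist X g (x k) (y k) / 2)) = γ k (y k)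
    rw [add_halves, he1 k]

end Claimed.Agent.R314
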