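import Claimed.Agent.R314.Bus.Main

/-!
# Row 314, block (C), package BUS, file 4: EXISTENCE OF METRIC SEGMENTS (no ODE, no Hopf-Rinow)      (helper111)

* `HasBtwD X d` : between points: for `0 ≤ l ≤ d x z` there is `y` with `d x y = l`, `d y z = d x z - l`;
* `pm_ulim`     : ultralimits of maps which are asymptotically isometric;
* `pm_chain`    : isometric chains of `N + 1` points from `x` to `z`;
* `pm_hasSeg`   : between points + proper + separated ⟹ segments;
* `bus_hasBtw`  : `rdist` has between points (almost minimising curves, intermediate value theorem, compact balls);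
* **`bus_hasSeg`** : `BusGeo n X g → HasSeg X g`.
-/

set_option autoImplicit false
set_option linter.unusedSectionVars false
open scoped ContDiff Topology
open Set Filter Claims.C0499 Claimed.Agent.R315

namespace Claimed.Agent.R314

section abstract

variable {V : Type} [TopologicalSpace V] {X : Set V} {d : V → V → ℝ}

/-- between points -/
def HasBtwD (X : Set V) (d : V → V → ℝ) : Prop :=
  ∀ x ∈ X, ∀ z ∈ X, ∀ l : ℝ, 0 ≤ l → l ≤ d x z → ∃ y ∈ X, d x y = l ∧ d y z = d x z - l

theorem pm_hyper_le : ((hyperfilter ℕ : Ultrafilter ℕ) : Filter ℕ) ≤ atTop := by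
  rw [← Nat.cofinite_eq_atTop]; exact hyperfilter_le_cofinite

/-- ultralimit of a sequence in a compact set -/
theorem pm_ulim_pt {B : Set V} (hB : IsCompact B) (y : ℕ → V) (hy : ∀ k, y k ∈ B) :
    ∃ y' ∈ B, Tendsto y (hyperfilter ℕ : Filter ℕ) (𝓝 y') := by
  have h1 : ∀ᶠ k in (hyperfilter ℕ : Filter ℕ), y k ∈ B := Eventually.of_forall hy
  obtain ⟨y', hy', hl⟩ := hB.ultrafilter_le_nhds ((hyperfilter ℕ).map y)
    (by rw [le_principal_iff]; exact h1)
  exact ⟨y', hy', hl⟩

/-- continuity of `d` along an ultralimit -/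
theorem PMet.tendsto_d (h : PMet X d) {F : Filter ℕ} {y z : ℕ → V} {y' z' : V} (hy : ∀ k, y k ∈ X) (hz : ∀ k, z k ∈ X)
    (hy' : y' ∈ X) (hz' : z' ∈ X) (h1 : Tendsto y F (𝓝 y')) (h2 : Tendsto z F (𝓝 z')) :
    Tendsto (fun k => d (y k) (z k)) F (𝓝 (d y' z')) := by
  have h3 : Tendsto (fun k => (y k, z k)) F (𝓝[X ×ˢ X] (y', z')) :=
    tendsto_nhdsWithin_iff.2 ⟨h1.prodMk_nhds h2, Eventually.of_forall fun k => ⟨hy k, hz k⟩⟩
  exact (h.cont (y', z') ⟨hy', hz'⟩).tendsto.comp h3

/-- ultralimits of asymptotically isometric maps -/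
theorem pm_ulim (h : PMet X d) {B : Set V} (hB : IsCompact B) (hBX : B ⊆ X) (c : ℕ → ℝ → V) (S : Set ℝ)
    (hm : ∀ t ∈ S, ∀ k, c k t ∈ B)
    (hd : ∀ s ∈ S, ∀ t ∈ S, Tendsto (fun k => d (c k s) (c k t)) atTop (𝓝 |s - t|)) :
    ∃ c' : ℝ → V, SegD X d c' S ∧ ∀ t ∈ S, Tendsto (fun k => c k t) (hyperfilter ℕ : Filter ℕ) (𝓝 (c' t)) := by
  have key : ∀ t, ∃ y, t ∈ S → (y ∈ B ∧ Tendsto (fun k => c k t) (hyperfilter ℕ : Filter ℕ) (𝓝 y)) := by
    intro t
    by_cases ht : t ∈ S
    · obtain ⟨y, hy, hl⟩ := pm_ulim_pt hB (fun k => c k t) (hm t ht)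
      exact ⟨y, fun _ => ⟨hy, hl⟩⟩
    · exact ⟨c 0 t, fun h' => absurd h' ht⟩
  choose c' hc' using key
  refine ⟨c', ⟨fun s hs => hBX (hc' s hs).1, fun s hs t ht => ?_⟩, fun t ht => (hc' t ht).2⟩
  have h1 := h.tendsto_d (fun k => hBX (hm s hs k)) (fun k => hBX (hm t ht k)) (hBX (hc' s hs).1) (hBX (hc' t ht).1)
    (hc' s hs).2 (hc' t ht).2
  exact tendsto_nhds_unique h1 ((hd s hs t ht).mono_left pm_hyper_le)

/-- isometric chains -/
theorem pm_chain (h : PMet X d) (hb : HasBtwD X d) {x z : V} (hx : x ∈ X) (hz : z ∈ X) (N : ℕ) (hN : 0 < N) :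
    ∃ p : ℕ → V, p 0 = x ∧ (∀ j ≤ N, p j ∈ X) ∧ (∀ j ≤ N, d (p j) z = d x z - j * (d x z / N)) ∧
      ∀ i ≤ N, ∀ j ≤ N, d (p i) (p j) = |(i : ℝ) - j| * (d x z / N) := by
  classical
  set L := d x z with hL
  have hL0 : 0 ≤ L := h.nonneg hx hz
  have hNr : (0 : ℝ) < N := Nat.cast_pos.2 hN
  set e := L / N with he
  have he0 : 0 ≤ e := div_nonneg hL0 hNr.le
  have hNe : (N : ℝ) * e = L := by rw [he]; field_simp
  -- the chain, by induction on its length
  have step : ∀ m ≤ N, ∃ p : ℕ → V, p 0 = x ∧ (∀ j ≤ m, p j ∈ X ∧ d (p j) z = L - j * e) ∧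
      ∀ j < m, d (p j) (p (j + 1)) = e := by
    intro m
    induction m with
    | zero =>
      intro _
      refine ⟨fun _ => x, rfl, fun j hj => ?_, fun j hj => absurd hj (Nat.not_lt_zero _)⟩
      obtain rfl : j = 0 := Nat.le_zero.1 hj
      exact ⟨hx, by simp [hL]⟩
    | succ m ih =>
      intro hm
      obtain ⟨p, hp0, hp1, hp2⟩ := ih (Nat.le_of_succ_le hm)
      obtain ⟨hpm, hdm⟩ := hp1 m le_rfl
      have hle : e ≤ d (p m) z := by
        rw [hdm]
        have : ((m : ℝ) + 1) * e ≤ N * e := by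
          refine mul_le_mul_of_nonneg_right ?_ he0
          exact_mod_cast hm
        nlinarith
      obtain ⟨y, hy, hy1, hy2⟩ := hb (p m) hpm z hz e he0 hle
      refine ⟨Function.update p (m + 1) y, ?_, fun j hj => ?_, fun j hj => ?_⟩
      · rw [Function.update_of_ne (by omega)]; exact hp0
      · rcases Nat.lt_or_ge j (m + 1) with hlt | hge
        · rw [Function.update_of_ne (by omega)]
          exact hp1 j (by omega)
        · obtain rfl : j = m + 1 := by omega
          rw [Function.update_self]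
          refine ⟨hy, ?_⟩
          rw [hy2, hdm]; push_cast; ring
      · rcases Nat.lt_or_ge j m with hlt | hge
        · rw [Function.update_of_ne (by omega), Function.update_of_ne (by omega)]
          exact hp2 j hlt
        · obtain rfl : j = m := by omega
          rw [Function.update_of_ne (by omega), Function.update_self]
          exact hy1
  obtain ⟨p, hp0, hp1, hp2⟩ := step N le_rfl
  have hup : ∀ i ≤ N, ∀ k, i + k ≤ N → d (p i) (p (i + k)) ≤ k * e := by
    intro i hi k
    induction k with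
    | zero =>
      intro _
      rw [Nat.add_zero, h.self _ (hp1 i hi).1]; simp
    | succ k ih =>
      intro hk
      have h1 := ih (by omega)
      have h2 := h.tri (p i) (hp1 i hi).1 (p (i + k)) (hp1 (i + k) (by omega)).1 (p (i + k + 1)) (hp1 (i + k + 1) (by omega)).1
      have h3 := hp2 (i + k) (by omega)
      rw [h3] at h2
      have : i + (k + 1) = i + k + 1 := by omega
      rw [this]; push_cast; linarith
  have hmain : ∀ i ≤ N, ∀ j ≤ N, i ≤ j → d (p i) (p j) = ((j : ℝ) - i) * e := by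
    intro i hi j hj hij
    obtain ⟨k, rfl⟩ := Nat.exists_eq_add_of_le hij
    have h1 := hup i hi k hj
    have h2 := h.tri (p i) (hp1 i hi).1 (p (i + k)) (hp1 (i + k) hj).1 z hz
    rw [(hp1 i hi).2, (hp1 (i + k) hj).2] at h2
    push_cast at h2 ⊢
    have : ((i : ℝ) + k - i) * e = k * e := by ring
    rw [this]
    nlinarith
  refine ⟨p, hp0, fun j hj => (hp1 j hj).1, fun j hj => (hp1 j hj).2, fun i hi j hj => ?_⟩
  rcases le_total i j with hij | hij
  · rw [hmain i hi j hj hij, abs_of_nonpos (by have : (i : ℝ) ≤ j := by exact_mod_cast hij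
                                               linarith)]
    ring
  · rw [h.symm _ (hp1 i hi).1 _ (hp1 j hj).1, hmain j hj i hi hij,
      abs_of_nonneg (by have : (j : ℝ) ≤ i := by exact_mod_cast hij
                        linarith)]

/-- **between points + proper + separated ⟹ segments** -/
theorem pm_hasSeg [T2Space V] (h : PMet X d) (hsep : ∀ x ∈ X, ∀ y ∈ X, d x y = 0 → x = y) (hb : HasBtwD X d) :
    HasSegD X d := by
  intro x hx z hz
  set L := d x z with hL
  have hL0 : 0 ≤ L := h.nonneg hx hz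
  rcases hL0.eq_or_lt with h0 | hpos
  · have hxz : x = z := hsep x hx z hz (by rw [← hL, ← h0])
    refine ⟨fun _ => x, rfl, hxz, fun _ _ => hx, fun s hs t ht => ?_⟩
    rw [← h0] at hs ht
    have e1 : s = 0 := le_antisymm hs.2 hs.1
    have e2 : t = 0 := le_antisymm ht.2 ht.1
    rw [h.self x hx, e1, e2]; simp
  · choose p hp0 hpX hpz hpd using fun k : ℕ => pm_chain h hb hx hz (k + 1) (Nat.succ_pos k)
    -- index of the step function
    set J : ℕ → ℝ → ℕ := fun k t => ⌊t * ((k + 1 : ℕ) : ℝ) / L⌋₊ with hJ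
    have hkpos : ∀ k : ℕ, (0 : ℝ) < ((k + 1 : ℕ) : ℝ) := fun k => Nat.cast_pos.2 (Nat.succ_pos k)
    have hJle : ∀ k t, t ∈ Icc 0 L → J k t ≤ k + 1 := by
      intro k t ht
      refine Nat.floor_le_of_le ?_
      rw [div_le_iff₀ hpos]
      exact mul_le_mul_of_nonneg_right ht.2 (hkpos k).le |>.trans (le_of_eq (mul_comm _ _))
    -- the approximate parameter
    set A : ℕ → ℝ → ℝ := fun k t => (J k t : ℝ) * (L / ((k + 1 : ℕ) : ℝ)) with hA
    have hAle : ∀ k t, t ∈ Icc 0 L → A k t ≤ t ∧ t - L / ((k + 1 : ℕ) : ℝ) ≤ A k t := by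
      intro k t ht
      have hq : 0 ≤ t * ((k + 1 : ℕ) : ℝ) / L := div_nonneg (mul_nonneg ht.1 (hkpos k).le) hpos.le
      have h1 : (J k t : ℝ) ≤ t * ((k + 1 : ℕ) : ℝ) / L := Nat.floor_le hq
      have h2 : t * ((k + 1 : ℕ) : ℝ) / L < (J k t : ℝ) + 1 := Nat.lt_floor_add_one _
      have hr : 0 < L / ((k + 1 : ℕ) : ℝ) := div_pos hpos (hkpos k)
      have e : t * ((k + 1 : ℕ) : ℝ) / L * (L / ((k + 1 : ℕ) : ℝ)) = t := by
        field_simp
      constructor
      · calc A k t ≤ t * ((k + 1 : ℕ) : ℝ) / L * (L / ((k + 1 : ℕ) : ℝ)) := mul_le_mul_of_nonneg_right h1 hr.le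
          _ = t := e
      · have := mul_le_mul_of_nonneg_right h2.le hr.le
        rw [e] at this
        simp only [hA]
        linarith
    have hAlim : ∀ t ∈ Icc 0 L, Tendsto (fun k => A k t) atTop (𝓝 t) := by
      intro t ht
      have h1 : Tendsto (fun k : ℕ => L / ((k + 1 : ℕ) : ℝ)) atTop (𝓝 0) := by
        have := (tendsto_one_div_add_atTop_nhds_zero_nat (𝕜 := ℝ)).const_mul L
        rw [mul_zero] at this
        refine this.congr fun k => ?_
        push_cast; ring
      have h2 : Tendsto (fun k : ℕ => t - L / ((k + 1 : ℕ) : ℝ)) atTop (𝓝 t) := by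
        have := (tendsto_const_nhds (x := t)).sub h1
        rwa [sub_zero] at this
      exact tendsto_of_tendsto_of_tendsto_of_le_of_le h2 tendsto_const_nhds (fun k => (hAle k t ht).2)
        fun k => (hAle k t ht).1
    set c : ℕ → ℝ → V := fun k t => p k (J k t) with hc
    have hdc : ∀ k, ∀ s ∈ Icc 0 L, ∀ t ∈ Icc 0 L, d (c k s) (c k t) = |A k s - A k t| := by
      intro k s hs t ht
      simp only [hc, hA]
      rw [hpd k _ (hJle k s hs) _ (hJle k t ht), ← sub_mul, abs_mul,
        abs_of_nonneg (div_nonneg hpos.le (hkpos k).le)]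
    have hB : IsCompact {y | y ∈ X ∧ d x y ≤ L} := h.proper x hx L
    have hm : ∀ t ∈ Icc 0 L, ∀ k, c k t ∈ {y | y ∈ X ∧ d x y ≤ L} := by
      intro t ht k
      refine ⟨hpX k _ (hJle k t ht), ?_⟩
      have h1 := hpd k 0 (Nat.zero_le _) _ (hJle k t ht)
      rw [hp0 k] at h1
      simp only [hc]
      rw [h1]
      have h2 := (hAle k t ht).1
      simp only [hA] at h2
      rw [Nat.cast_zero, zero_sub, abs_neg, abs_of_nonneg (Nat.cast_nonneg _)]
      exact h2.trans ht.2
    obtain ⟨c', hc1, hc2⟩ := pm_ulim h hB (fun y hy => hy.1) c (Icc 0 L) hm (fun s hs t ht => by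
      simp only [hdc _ s hs t ht]
      exact ((hAlim s hs).sub (hAlim t ht)).abs)
    have m0 : (0 : ℝ) ∈ Icc 0 L := ⟨le_rfl, hpos.le⟩
    have mL : L ∈ Icc 0 L := ⟨hpos.le, le_rfl⟩
    refine ⟨c', ?_, ?_, hc1⟩
    · have h1 : ∀ k, c k 0 = x := by
        intro k
        simp only [hc, hJ]
        rw [zero_mul, zero_div, Nat.floor_zero, hp0]
      have h2 := hc2 0 m0
      simp only [h1] at h2
      exact tendsto_nhds_unique h2 tendsto_const_nhds
    · have h1 : ∀ k, c k L = z := by
        intro k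
        have e : J k L = k + 1 := by
          simp only [hJ]
          rw [mul_div_assoc, mul_comm, div_mul_cancel₀ _ hpos.ne', Nat.floor_natCast]
        simp only [hc]
        rw [e]
        refine hsep _ (hpX k _ le_rfl) z hz ?_
        rw [hpz k _ le_rfl]
        have := (hkpos k).ne'
        field_simp
        ring
      have h2 := hc2 L mL
      simp only [h1] at h2
      exact tendsto_nhds_unique h2 tendsto_const_nhds

end abstract

variable {V : Type} [NormedAddCommGroup V] [NormedSpace ℝ V] [FiniteDimensional ℝ V]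
variable {n : ℕ} {X : Set V} {g : Ten V}

/-- **`rdist` has between points** -/
theorem bus_hasBtw (h : BusGeo n X g) : HasBtwD X (rdist X g) := by
  intro x hx z hz l hl0 hlD
  have hP := bus_pmet h
  have hT : IsTenOn n X g := (if_isMetricOn_iff.1 h.met).1
  have hpc := h.conn.isPreconnected
  have hj : if_Join X x z := if_join_of_connected h.mfd hpc hx hz
  have key : ∀ k : ℕ, ∃ y, y ∈ X ∧ rdist X g x y = l ∧ rdist X g y z ≤ rdist X g x z - l + 1 / ((k : ℝ) + 1) := by
    intro k
    have hk : (0 : ℝ) < 1 / ((k : ℝ) + 1) := by positivity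
    obtain ⟨c, hc, h0, h1, hlen⟩ := if_exists_len_lt (g := g) hj (show rdist X g x z < rdist X g x z + 1 / ((k : ℝ) + 1) by linarith)
    have hcont : ContinuousOn (fun t => rdist X g x (c t)) (Icc (0 : ℝ) 1) :=
      (hP.cont_right hx).comp hc.1.continuous.continuousOn fun t ht => hc.2 t ht
    have hmem : l ∈ Icc (rdist X g x (c 0)) (rdist X g x (c 1)) := by
      rw [h0, h1, hP.self x hx]; exact ⟨hl0, hlD⟩
    obtain ⟨t, ht, hlt⟩ := intermediate_value_Icc zero_le_one hcont hmem
    have h2 := if_rdist_add_le_len h.mfd hT hc ht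
    rw [h0, h1] at h2
    refine ⟨c t, hc.2 t ht, hlt, ?_⟩
    have hlt' : rdist X g x (c t) = l := hlt
    linarith
  choose y hyX hy1 hy2 using key
  obtain ⟨y', hy', hlim⟩ := pm_ulim_pt (hP.proper x hx l) y fun k => ⟨hyX k, (hy1 k).le⟩
  have t1 := hP.tendsto_d (fun _ => hx) hyX hx hy'.1 tendsto_const_nhds hlim
  have t2 := hP.tendsto_d hyX (fun _ => hz) hy'.1 hz hlim tendsto_const_nhds
  have e1 : rdist X g x y' = l := by
    simp only [hy1] at t1
    exact tendsto_nhds_unique t1 tendsto_const_nhds |>.symm ▸ rfl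
  have e2 : rdist X g y' z ≤ rdist X g x z - l := by
    have t3 : Tendsto (fun k : ℕ => rdist X g x z - l + 1 / ((k : ℝ) + 1)) (hyperfilter ℕ : Filter ℕ) (𝓝 (rdist X g x z - l + 0)) :=
      (tendsto_const_nhds.add tendsto_one_div_add_atTop_nhds_zero_nat).mono_left pm_hyper_le
    rw [add_zero] at t3
    exact le_of_tendsto_of_tendsto' t2 t3 hy2
  refine ⟨y', hy'.1, e1, le_antisymm e2 ?_⟩
  have := hP.tri x hx y' hy'.1 z hz
  linarith

/-- **existence of metric segments** on a complete connected Riemannian manifold -/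
theorem bus_hasSeg (h : BusGeo n X g) : HasSeg X g :=
  pm_hasSeg (bus_pmet h) (fun _ hx _ hy h0 => (if_rdist_eq_zero_iff h.mfd h.conn.isPreconnected h.met hx hy).1 h0)
    (bus_hasBtw h)

/-- the exit of BUS without the hypothesis `HasSeg` -/
theorem bus_exit' (h : BusGeo n X g) (hsv : HasLapSupp n X g) {c : ℝ → V} (hc : IsLine X g c) :
    ∃ b : V → ℝ, (∀ x ∈ X, ∀ y ∈ X, |b x - b y| ≤ rdist X g x y) ∧
      (∀ x ∈ X, ∃ σ : ℝ → V, IsLine X g σ ∧ σ 0 = x ∧ ∀ t, b (σ t) = b x + t) ∧ ∀ t, b (c t) = t :=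
  bus_exit h (bus_hasSeg h) hsv hc

end Claimed.Agent.R314
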